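import Vale.Agent.P134.SM.Nu2
import Vale.Agent.P134.H891.Flux

/-! Interface propositions of M4' (n = 4, note 9746). Everything is for one fixed `u`, centre `0`. -/

open MeasureTheory Filter Topology

namespace Vale.Agent.P134.M4

open Vale.Agent.P134 Vale.Agent.P134.SM
open Vale.Agent.P134.H891 (Psi ph)

/-- Closed Euclidean ball of radius `R` centred at `0` in `ℝⁿ`. -/
def bl {n : ℕ} (R : ℝ) : Set (Fin n → ℝ) := {x | rho Finset.univ x ≤ R ^ 2}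

/-- Monotone in the last direction, from `-1` to `1`. -/
structure Mo (u : (Fin 4 → ℝ) → ℝ) : Prop extends Sol u where
  pos : ∀ x, 0 < pd 3 u x
  top : ∀ x, Tendsto (fun t : ℝ => u (x + t • Pi.single 3 1)) atTop (𝓝 1)
  bot : ∀ x, Tendsto (fun t : ℝ => u (x + t • Pi.single 3 1)) atBot (𝓝 (-1))

/-- Cubic energy bound (centre `0`): 1.1. -/
def E3 (u : (Fin 4 → ℝ) → ℝ) : Prop :=
  ∃ C : ℝ, ∀ R : ℝ, 1 ≤ R → ∫ x in bl R, psi u x ^ 2 ≤ C * R ^ 3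

/-- Cubic energy bound, all centres, one constant: 1.1. -/
def E3' (u : (Fin 4 → ℝ) → ℝ) : Prop :=
  ∃ C : ℝ, ∀ (y : Fin 4 → ℝ) (R : ℝ), 1 ≤ R → ∫ x in bl R, psi u (x + y) ^ 2 ≤ C * R ^ 3

/-- `R⁻⁵ ∫_{B_R} (x·∇u)² → 0`: 1.2. -/
def S0 (u : (Fin 4 → ℝ) → ℝ) : Prop :=
  ∀ ε : ℝ, 0 < ε → ∀ᶠ R : ℝ in atTop, ∫ x in bl R, rd u x ^ 2 ≤ ε * R ^ 5

/-- Linear growth of the curvature integral: 1.3. -/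
def CU (u : (Fin 4 → ℝ) → ℝ) : Prop :=
  ∃ C : ℝ, ∀ R : ℝ, 1 ≤ R → ∫ x in bl R, gs u x * dn u x ≤ C * R

/-- Stability in the two forms: 1.3. -/
def ST (u : (Fin 4 → ℝ) → ℝ) : Prop :=
  (∀ η : (Fin 4 → ℝ) → ℝ, ContDiff ℝ 1 η → HasCompactSupport η →
    ∫ x, gs u x * dn u x * η x ^ 2 ≤ ∫ x, gs u x * gs η x) ∧
  (∀ η : (Fin 4 → ℝ) → ℝ, ContDiff ℝ 1 η → HasCompactSupport η →
    2 * ∫ x, psi u x * defi u x * η x ^ 2 ≤ ∫ x, psi u x ^ 2 * gs η x)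

/-- (K1'): 1.7. -/
def K1 (u : (Fin 4 → ℝ) → ℝ) : Prop :=
  ∀ ε : ℝ, 0 < ε → ∀ᶠ R : ℝ in atTop, ∫ x in bl R, psi u x * wn u x * √(dn u x) ≤ ε * R ^ 2

/-- Unoriented flatness: 1.8. -/
def FLAT (u : (Fin 4 → ℝ) → ℝ) : Prop :=
  ∀ ε : ℝ, 0 < ε → ∀ᶠ R : ℝ in atTop, ∃ e : Fin 4 → ℝ, ∑ i, e i ^ 2 = 1 ∧
    ∫ x in bl R, psi u x * wn u x * (1 - tau e u x ^ 2) ≤ ε * R ^ 3

/-- (OUT1): sharp energy bound, 1.9. `ph` is the cut-off `(1-|x|²/R²)₊²` of `H891/Cut.lean`. -/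
def OUT1 (u : (Fin 4 → ℝ) → ℝ) : Prop :=
  ∀ R : ℝ, 0 < R → ∫ x, en u x * ph R x ≤ Psi 1 * (∫ y : Fin 3 → ℝ, ph 1 y) * R ^ 3

open Classical in
/-- (OUT2): the blow-down is a half space, 1.9. -/
def OUT2 (u : (Fin 4 → ℝ) → ℝ) : Prop :=
  ∀ ε : ℝ, 0 < ε → ∀ᶠ R : ℝ in atTop, ∃ e : Fin 4 → ℝ, ∑ i, e i ^ 2 = 1 ∧
    ∫ x in bl R, |Psi (u x) - if 0 < ∑ i, e i * x i then Psi 1 else 0| ≤ ε * R ^ 4

/-- 1.1 + 1.2. -/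
def StA : Prop := ∀ u : (Fin 4 → ℝ) → ℝ, Mo u → E3' u ∧ S0 u
/-- 1.3. -/
def StB : Prop := ∀ u : (Fin 4 → ℝ) → ℝ, Mo u → ST u
/-- 1.4 - 1.7. -/
def StC : Prop := ∀ u : (Fin 4 → ℝ) → ℝ, Mo u → E3' u → S0 u → ST u → K1 u
/-- 1.8. -/
def StD : Prop := ∀ u : (Fin 4 → ℝ) → ℝ, Sol u → (∀ x, 0 < gs u x) → E3 u → S0 u → K1 u → FLAT u
/-- 1.9. -/
def StE : Prop := ∀ u : (Fin 4 → ℝ) → ℝ, Mo u → E3' u → S0 u → FLAT u → OUT1 u ∧ OUT2 u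
/-- Part 2. -/
def StF : Prop := ∀ u : (Fin 4 → ℝ) → ℝ, Sol u → (∀ x, |u x| < 1) → |u 0| ≤ 3 / 4 →
  E3' u → ST u → OUT1 u → OUT2 u →
  ∃ (e : Fin 4 → ℝ) (h : ℝ → ℝ), ∑ i, e i ^ 2 = 1 ∧ ∀ x, u x = h (∑ i, e i * x i)

end Vale.Agent.P134.M4
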