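import Vale.Agent.P134.M4.Defs

/-! Assembly of M4': the interface statements give the one-dimensionality of every solution on `ℝ⁴`
which is monotone in the last direction with limits `-1` and `1`. -/

set_option linter.all false

open MeasureTheory Filter Topology

namespace Vale.Agent.P134.M4

open Vale.Agent.P134 Vale.Agent.P134.SM

variable {u : (Fin 4 → ℝ) → ℝ}

lemma Mo.gs_pos (h : Mo u) (x : Fin 4 → ℝ) : 0 < gs u x := by
  have h1 : pd 3 u x ^ 2 ≤ gs u x :=
    Finset.single_le_sum (f := fun i => pd i u x ^ 2) (fun i _ => sq_nonneg _) (Finset.mem_univ 3)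
  have := pow_pos (h.pos x) 2
  linarith

lemma Mo.strictMono (h : Mo u) (x : Fin 4 → ℝ) :
    StrictMono (fun t : ℝ => u (x + t • Pi.single 3 1)) := by
  apply strictMono_of_deriv_pos
  intro s
  have hd := hasDerivAt_ln (h.c2.differentiable (by norm_num)) x 3 s
  rw [hd.deriv]
  exact h.pos _

lemma Mo.abs_lt (h : Mo u) (x : Fin 4 → ℝ) : |u x| < 1 := by
  have h1 := h.strictMono x (show (0:ℝ) < 1 by norm_num)
  have h2 := h.strictMono x (show (-1:ℝ) < 0 by norm_num)
  simp only [zero_smul, add_zero] at h1 h2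
  have h3 := abs_le.mp (h.bd (x + (1:ℝ) • Pi.single 3 1))
  have h4 := abs_le.mp (h.bd (x + (-1:ℝ) • Pi.single 3 1))
  rw [_root_.abs_lt]
  constructor <;> linarith

lemma Mo.translate (h : Mo u) (a : Fin 4 → ℝ) : Mo (fun x => u (x + a)) where
  toSol := h.toSol.translate a
  pos := fun x => by rw [pd_translate]; exact h.pos _
  top := fun x => by
    have := h.top (x + a)
    refine this.congr fun t => ?_
    congr 1; abel
  bot := fun x => by
    have := h.bot (x + a)
    refine this.congr fun t => ?_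
    congr 1; abel

lemma Mo.exists_zero (h : Mo u) : ∃ a : Fin 4 → ℝ, u a = 0 := by
  have hc : Continuous (fun t : ℝ => u (0 + t • Pi.single 3 1)) :=
    h.c2.continuous.comp (by fun_prop)
  obtain ⟨t1, ht1⟩ := ((h.top 0).eventually (lt_mem_nhds (show (0:ℝ) < 1 by norm_num))).exists
  obtain ⟨t2, ht2⟩ := ((h.bot 0).eventually (gt_mem_nhds (show (-1:ℝ) < 0 by norm_num))).exists
  obtain ⟨t, ht⟩ := mem_range_of_exists_le_of_exists_ge hc ⟨t2, ht2.le⟩ ⟨t1, ht1.le⟩
  exact ⟨_, ht⟩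

lemma E3'.e3 (h : E3' u) : E3 u := by
  obtain ⟨C, hC⟩ := h
  exact ⟨C, fun R hR => by simpa using hC 0 R hR⟩

/-- One-dimensionality in the last case: limits `±1`. -/
theorem main (hA : StA) (hB : StB) (hC : StC) (hD : StD) (hE : StE) (hF : StF) (h : Mo u) :
    ∃ (e : Fin 4 → ℝ) (g : ℝ → ℝ), ∑ i, e i ^ 2 = 1 ∧ ∀ x, u x = g (∑ i, e i * x i) := by
  obtain ⟨a, ha⟩ := h.exists_zero
  set v : (Fin 4 → ℝ) → ℝ := fun x => u (x + a) with hv
  have hm : Mo v := h.translate a
  obtain ⟨hE3, hS0⟩ := hA v hm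
  have hST := hB v hm
  have hK := hC v hm hE3 hS0 hST
  have hfl := hD v hm.toSol hm.gs_pos hE3.e3 hS0 hK
  obtain ⟨o1, o2⟩ := hE v hm hE3 hS0 hfl
  have h0 : |v 0| ≤ 3 / 4 := by
    simp only [hv, zero_add, ha, abs_zero]; norm_num
  obtain ⟨e, g, he, hg⟩ := hF v hm.toSol hm.abs_lt h0 hE3 hST o1 o2
  refine ⟨e, fun s => g (s - ∑ i, e i * a i), he, fun x => ?_⟩
  have h1 : u x = v (x - a) := by simp [hv]
  rw [h1, hg]
  congr 1
  rw [← Finset.sum_sub_distrib]
  refine Finset.sum_congr rfl fun i _ => ?_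
  simp only [Pi.sub_apply]; ring

end Vale.Agent.P134.M4
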