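import Vale.Agent.P134.M4.Defs
import Vale.Agent.P134.SM.Ibp

/-! M4-2.8: the exact Caccioppoli inequality for `X = ∇d`, `u = tanh (d/√2)`, and the end of the
proof: if the tilt excess is `o(R²)` along a sequence of radii, then `u` is one-dimensional. -/

set_option linter.all false

open MeasureTheory Filter Topology

namespace Vale.Agent.P134.M4

open Vale.Agent.P134 Vale.Agent.P134.SM

variable {n : ℕ} {u : (Fin n → ℝ) → ℝ}

/-- The components of `X = √2 ∇u/(1-u²)`. -/
noncomputable def XX (u : (Fin n → ℝ) → ℝ) (i : Fin n) (x : Fin n → ℝ) : ℝ :=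
  √2 * pd i u x / psi u x

lemma XX_c2 (hu : Sol u) (hψ : ∀ x, 0 < psi u x) (i : Fin n) : ContDiff ℝ 2 (XX u i) := by
  unfold XX
  exact (contDiff_const.mul (Sol.pd_c2 hu i)).div hu.psi_contDiff (fun x => (hψ x).ne')

lemma div_XX (hu : Sol u) (hψ : ∀ x, 0 < psi u x) (i : Fin n) (x : Fin n → ℝ) :
    ∑ k, pd k (fun y => psi u y ^ 2 * pd k (XX u i) y) x
      = -(2 * psi u x * defi u x * XX u i x) := by
  have hf : ContDiffAt ℝ 2 (fun y => √2 * pd i u y) x :=
    (contDiff_const.mul (Sol.pd_c2 hu i)).contDiffAt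
  have h := (div_sq_grad_quot hf hu.psi_contDiff.contDiffAt (hψ x).ne').2
  have e : (fun z => √2 * pd i u z / psi u z) = XX u i := rfl
  rw [e] at h
  rw [h, lap_smul _ (Sol.pd_c2 hu i), Sol.lap_pd hu]
  have e2 : lap (psi u) x = (3 * u x ^ 2 - 1) * psi u x + 2 * defi u x := hu.lap_psi x
  rw [e2]
  unfold XX
  have := (hψ x).ne'
  field_simp
  ring

lemma sum_XX_sq (hψ : ∀ x, 0 < psi u x) (x : Fin n → ℝ) :
    psi u x ^ 2 * ∑ i, XX u i x ^ 2 = psi u x ^ 2 - 2 * defi u x := by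
  have h2 : (√2 : ℝ) ^ 2 = 2 := Real.sq_sqrt (by norm_num)
  have h0 := (hψ x).ne'
  rw [Finset.mul_sum]
  have e : ∀ i, psi u x ^ 2 * XX u i x ^ 2 = 2 * pd i u x ^ 2 := by
    intro i
    unfold XX
    rw [div_pow, mul_pow, h2]
    field_simp
  simp_rw [e]
  rw [← Finset.mul_sum, defi_eq]
  unfold gs
  ring

variable {ζ : (Fin n → ℝ) → ℝ} {e : Fin n → ℝ}

lemma gs_mul (f ζ : (Fin n → ℝ) → ℝ) {x : Fin n → ℝ} (hf : DifferentiableAt ℝ f x)
    (hζ : DifferentiableAt ℝ ζ x) :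
    gs (fun y => f y * ζ y) x
      = ζ x ^ 2 * gs f x + 2 * ζ x * f x * gg ζ f x + f x ^ 2 * gs ζ x := by
  unfold gs gg
  rw [Finset.mul_sum, Finset.mul_sum, Finset.mul_sum, ← Finset.sum_add_distrib,
    ← Finset.sum_add_distrib]
  refine Finset.sum_congr rfl fun i _ => ?_
  rw [pd_mul hf hζ]
  ring

lemma gg_mul_sq (f ζ : (Fin n → ℝ) → ℝ) {x : Fin n → ℝ} (hf : DifferentiableAt ℝ f x)
    (hζ : DifferentiableAt ℝ ζ x) :
    gg (fun y => f y * ζ y ^ 2) f x = ζ x ^ 2 * gs f x + 2 * ζ x * f x * gg ζ f x := by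
  unfold gs gg
  rw [Finset.mul_sum, Finset.mul_sum, ← Finset.sum_add_distrib]
  refine Finset.sum_congr rfl fun i _ => ?_
  rw [pd_mul hf (hζ.fun_pow 2), pd_sq hζ]
  ring

lemma gs_sub_const (f : (Fin n → ℝ) → ℝ) (c : ℝ) (x : Fin n → ℝ) :
    gs (fun y => f y - c) x = gs f x := by
  unfold gs pd
  refine Finset.sum_congr rfl fun i _ => ?_
  rw [fderiv_sub_const]

lemma gg_sub_const (ζ f : (Fin n → ℝ) → ℝ) (c : ℝ) (x : Fin n → ℝ) :
    gg ζ (fun y => f y - c) x = gg ζ f x := by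
  unfold gg pd
  refine Finset.sum_congr rfl fun i _ => ?_
  rw [fderiv_sub_const]

lemma cont_gs {f : (Fin n → ℝ) → ℝ} (hf : ContDiff ℝ 1 f) : Continuous (gs f) :=
  continuous_finset_sum _ fun i _ => (continuous_pd hf).pow 2

lemma cont_gg {f g : (Fin n → ℝ) → ℝ} (hf : ContDiff ℝ 1 f) (hg : ContDiff ℝ 1 g) :
    Continuous (gg f g) :=
  continuous_finset_sum _ fun i _ => (continuous_pd hf).mul (continuous_pd hg)

lemma hcs_gs (hc : HasCompactSupport ζ) : HasCompactSupport (gs ζ) := by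
  apply hc.mono'
  intro x hx
  by_contra h
  apply hx
  unfold gs
  exact Finset.sum_eq_zero fun i _ => by rw [pd_eq_zero_of_notMem_tsupport h]; ring

/-- Exact Caccioppoli inequality. -/
theorem cacc (hu : Sol u) (hψ : ∀ x, 0 < psi u x)
    (hst : ∀ η : (Fin n → ℝ) → ℝ, ContDiff ℝ 1 η → HasCompactSupport η →
      2 * ∫ x, psi u x * defi u x * η x ^ 2 ≤ ∫ x, psi u x ^ 2 * gs η x)
    (he : ∑ i, e i ^ 2 = 1) (hζ : ContDiff ℝ 1 ζ) (hc : HasCompactSupport ζ) :
    ∑ i, ∫ x, psi u x ^ 2 * (ζ x ^ 2 * gs (XX u i) x)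
      ≤ 6 * ∑ i, ∫ x, psi u x ^ 2 * ((XX u i x - e i) ^ 2 * gs ζ x) := by
  have cψ : Continuous (psi u) := hu.psi_contDiff.continuous
  have cD : Continuous (defi u) := hu.defi_continuous
  have cX : ∀ i, Continuous (XX u i) := fun i => (XX_c2 hu hψ i).continuous
  have X1 : ∀ i, ContDiff ℝ 1 (XX u i) := fun i => (XX_c2 hu hψ i).of_le (by norm_num)
  have cζ : Continuous ζ := hζ.continuous
  have hc2 : HasCompactSupport (fun x => ζ x ^ 2) := hcs_sq hc
  have dX : ∀ i x, DifferentiableAt ℝ (fun y => XX u i y - e i) x := fun i x =>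
    ((X1 i).differentiable (by norm_num) x).sub_const _
  have dζ : ∀ x, DifferentiableAt ℝ ζ x := fun x => hζ.differentiable (by norm_num) x
  -- the integrals
  set a : Fin n → ℝ := fun i => ∫ x, psi u x ^ 2 * (ζ x ^ 2 * gs (XX u i) x) with ha
  set b : Fin n → ℝ := fun i =>
    ∫ x, psi u x ^ 2 * (2 * ζ x * (XX u i x - e i) * gg ζ (XX u i) x) with hb
  set c : Fin n → ℝ := fun i => ∫ x, psi u x ^ 2 * ((XX u i x - e i) ^ 2 * gs ζ x) with hcdef
  set r : Fin n → ℝ := fun i =>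
    ∫ x, 2 * psi u x * defi u x * (XX u i x * (XX u i x - e i)) * ζ x ^ 2 with hr
  set p : Fin n → ℝ := fun i =>
    2 * ∫ x, psi u x * defi u x * ((XX u i x - e i) * ζ x) ^ 2 with hp
  have ia : ∀ i, Integrable (fun x => psi u x ^ 2 * (ζ x ^ 2 * gs (XX u i) x)) := fun i =>
    ((cψ.pow 2).mul ((cζ.pow 2).mul (cont_gs (X1 i)))).integrable_of_hasCompactSupport
      (hc2.mul_right (f' := gs (XX u i))).mul_left
  have ib : ∀ i, Integrable
      (fun x => psi u x ^ 2 * (2 * ζ x * (XX u i x - e i) * gg ζ (XX u i) x)) := fun i =>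
    ((cψ.pow 2).mul (((continuous_const.mul cζ).mul ((cX i).sub continuous_const)).mul
      (cont_gg hζ (X1 i)))).integrable_of_hasCompactSupport
      (((hc.mul_left (f := fun _ => (2:ℝ))).mul_right (f' := fun x => XX u i x - e i)).mul_right
        (f' := gg ζ (XX u i))).mul_left
  have ic : ∀ i, Integrable (fun x => psi u x ^ 2 * ((XX u i x - e i) ^ 2 * gs ζ x)) := fun i =>
    ((cψ.pow 2).mul ((((cX i).sub continuous_const).pow 2).mul
      (cont_gs hζ))).integrable_of_hasCompactSupport ((hcs_gs hc).mul_left).mul_left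
  have ir : ∀ i, Integrable
      (fun x => 2 * psi u x * defi u x * (XX u i x * (XX u i x - e i)) * ζ x ^ 2) := fun i =>
    ((((continuous_const.mul cψ).mul cD).mul ((cX i).mul ((cX i).sub continuous_const))).mul
      (cζ.pow 2)).integrable_of_hasCompactSupport hc2.mul_left
  have hcX : ∀ i, HasCompactSupport (fun x => (XX u i x - e i) * ζ x) := fun i => hc.mul_left
  have ip : ∀ i, Integrable (fun x => psi u x * defi u x * ((XX u i x - e i) * ζ x) ^ 2) :=
    fun i => ((cψ.mul cD).mul ((((cX i).sub continuous_const).mul cζ).pow 2)).integrable_of_hasCompactSupport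
      (hcs_sq (hcX i)).mul_left
  -- the equation
  have heq : ∀ i, a i + b i = r i := by
    intro i
    have hη : ContDiff ℝ 1 (fun x => (XX u i x - e i) * ζ x ^ 2) :=
      ((X1 i).sub contDiff_const).mul (hζ.pow 2)
    have hg := int_green_loc (p := fun y => psi u y ^ 2) (f := XX u i) hη hc2.mul_left
      (fun x _ => ((hu.psi_contDiff.of_le (by norm_num)).pow 2).contDiffAt)
      (fun x _ => (XX_c2 hu hψ i).contDiffAt)
    have h1 : ∫ x, psi u x ^ 2 * gg (fun x => (XX u i x - e i) * ζ x ^ 2) (XX u i) x = a i + b i := by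
      rw [ha, hb, ← integral_add (ia i) (ib i)]
      refine integral_congr_ae (Eventually.of_forall fun x => ?_)
      simp only
      have h2 := gg_mul_sq (fun y => XX u i y - e i) ζ (dX i x) (dζ x)
      rw [gg_sub_const, gs_sub_const, gg_sub_const] at h2
      rw [h2]; ring
    rw [h1] at hg
    have h3 : ∫ x, (XX u i x - e i) * ζ x ^ 2
        * ∑ k, pd k (fun y => psi u y ^ 2 * pd k (XX u i) y) x = - r i := by
      rw [hr, ← integral_neg]
      refine integral_congr_ae (Eventually.of_forall fun x => ?_)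
      simp only
      rw [div_XX hu hψ]; ring
    rw [h3] at hg
    linarith
  -- stability
  have hstab : ∀ i, p i ≤ a i + b i + c i := by
    intro i
    have h1 := hst (fun x => (XX u i x - e i) * ζ x) (((X1 i).sub contDiff_const).mul hζ) (hcX i)
    refine h1.trans (le_of_eq ?_)
    have iab : Integrable (fun x => psi u x ^ 2 * (ζ x ^ 2 * gs (XX u i) x)
        + psi u x ^ 2 * (2 * ζ x * (XX u i x - e i) * gg ζ (XX u i) x)) := (ia i).add (ib i)
    rw [ha, hb, hcdef]
    simp only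
    rw [← integral_add (ia i) (ib i), ← integral_add iab (ic i)]
    refine integral_congr_ae (Eventually.of_forall fun x => ?_)
    simp only
    have h2 := gs_mul (fun y => XX u i y - e i) ζ (dX i x) (dζ x)
    rw [gs_sub_const, gg_sub_const] at h2
    rw [h2]; ring
  -- lower bound of the cross term
  have hcross : ∀ i, -(1 / 2) * a i - 2 * c i ≤ b i := by
    intro i
    rw [ha, hb, hcdef]
    simp only
    rw [← integral_const_mul, ← integral_const_mul, ← integral_sub ((ia i).const_mul _)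
      ((ic i).const_mul _)]
    refine integral_mono (((ia i).const_mul _).sub ((ic i).const_mul _)) (ib i) fun x => ?_
    simp only
    have h1 := gg_sq_le ζ (XX u i) x
    have h2 := gs_nonneg ζ x
    have h3 := gs_nonneg (XX u i) x
    have h4 : 0 ≤ psi u x ^ 2 := sq_nonneg _
    have key : -(1 / 2) * (ζ x ^ 2 * gs (XX u i) x) - 2 * ((XX u i x - e i) ^ 2 * gs ζ x)
        ≤ 2 * ζ x * (XX u i x - e i) * gg ζ (XX u i) x := by
      set A := ζ x with hA
      set B := XX u i x - e i with hB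
      set G := gg ζ (XX u i) x with hG
      set P := gs ζ x with hP
      set Q := gs (XX u i) x with hQ
      -- (A²Q/2 + 2B²P)² ≥ 4·(A²Q/2)(2B²P) = 4A²B²PQ ≥ (2ABG)²
      by_contra hcon
      push Not at hcon
      have h5 : 0 ≤ 1 / 2 * (A ^ 2 * Q) + 2 * (B ^ 2 * P) := by positivity
      have h6 : 1 / 2 * (A ^ 2 * Q) + 2 * (B ^ 2 * P) < -(2 * A * B * G) := by linarith
      have h7 : (1 / 2 * (A ^ 2 * Q) + 2 * (B ^ 2 * P)) ^ 2 < (2 * A * B * G) ^ 2 := by
        have := pow_lt_pow_left₀ h6 h5 (n := 2) (by norm_num)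
        rwa [neg_sq] at this
      have h8 : (2 * A * B * G) ^ 2 ≤ 4 * (A ^ 2 * B ^ 2) * (P * Q) := by
        have h9 : (2 * A * B * G) ^ 2 = 4 * (A ^ 2 * B ^ 2) * G ^ 2 := by ring
        rw [h9]
        exact mul_le_mul_of_nonneg_left h1 (by positivity)
      have h10 := sq_nonneg (1 / 2 * (A ^ 2 * Q) - 2 * (B ^ 2 * P))
      have h11 : (1 / 2 * (A ^ 2 * Q) + 2 * (B ^ 2 * P)) ^ 2
          = (1 / 2 * (A ^ 2 * Q) - 2 * (B ^ 2 * P)) ^ 2 + 4 * (A ^ 2 * B ^ 2) * (P * Q) := by ring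
      linarith
    have := mul_le_mul_of_nonneg_left key h4
    linarith
  -- pointwise sum
  have hsum : ∑ i, r i ≤ 1 / 2 * ∑ i, p i := by
    rw [hr, hp]
    simp only
    rw [← Finset.mul_sum, ← mul_assoc, ← integral_finset_sum _ (fun i _ => ir i),
      ← integral_finset_sum _ (fun i _ => ip i), ← integral_const_mul]
    refine integral_mono (integrable_finset_sum _ fun i _ => ir i)
      ((integrable_finset_sum _ fun i _ => ip i).const_mul _) fun x => ?_
    simp only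
    have hD := hu.defi_nonneg x
    have hps := hψ x
    have h1 := sum_XX_sq hψ x
    have h2 : ∑ i, XX u i x ^ 2 ≤ 1 := by
      have h3 : psi u x ^ 2 * ∑ i, XX u i x ^ 2 ≤ psi u x ^ 2 * 1 := by
        rw [h1]; linarith
      exact le_of_mul_le_mul_left h3 (by positivity)
    have e1 : ∑ i, 2 * psi u x * defi u x * (XX u i x * (XX u i x - e i)) * ζ x ^ 2
        = 2 * psi u x * defi u x * ζ x ^ 2 * ∑ i, (XX u i x * (XX u i x - e i)) := by
      rw [Finset.mul_sum]; exact Finset.sum_congr rfl fun i _ => by ring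
    have e2 : ∑ i, psi u x * defi u x * ((XX u i x - e i) * ζ x) ^ 2
        = psi u x * defi u x * ζ x ^ 2 * ∑ i, (XX u i x - e i) ^ 2 := by
      rw [Finset.mul_sum]; exact Finset.sum_congr rfl fun i _ => by ring
    rw [e1, e2]
    have e3 : ∑ i, (XX u i x * (XX u i x - e i))
        = 1 / 2 * (∑ i, (XX u i x - e i) ^ 2) + 1 / 2 * (∑ i, XX u i x ^ 2) - 1 / 2 * ∑ i, e i ^ 2 := by
      rw [Finset.mul_sum, Finset.mul_sum, Finset.mul_sum, ← Finset.sum_add_distrib,
        ← Finset.sum_sub_distrib]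
      exact Finset.sum_congr rfl fun i _ => by ring
    rw [e3, he]
    have h5 : 0 ≤ psi u x * defi u x * ζ x ^ 2 := by positivity
    nlinarith [mul_nonneg h5 (sub_nonneg.mpr h2)]
  have t1 : ∑ i, (a i + b i) = ∑ i, r i := Finset.sum_congr rfl fun i _ => heq i
  have t2 : ∑ i, p i ≤ ∑ i, (a i + b i + c i) := Finset.sum_le_sum fun i _ => hstab i
  have t3 : ∑ i, (-(1 / 2) * a i - 2 * c i) ≤ ∑ i, b i := Finset.sum_le_sum fun i _ => hcross i
  rw [Finset.sum_add_distrib] at t1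
  rw [Finset.sum_add_distrib, Finset.sum_add_distrib] at t2
  rw [Finset.sum_sub_distrib, ← Finset.mul_sum, ← Finset.mul_sum] at t3
  linarith

/-- The tilt integrand. -/
noncomputable def TI (u : (Fin n → ℝ) → ℝ) (e : Fin n → ℝ) (x : Fin n → ℝ) : ℝ :=
  ∑ i, (√2 * pd i u x - psi u x * e i) ^ 2

lemma TI_eq (hψ : ∀ x, 0 < psi u x) (e x : Fin n → ℝ) :
    ∑ i, psi u x ^ 2 * (XX u i x - e i) ^ 2 = TI u e x := by
  unfold TI XX
  refine Finset.sum_congr rfl fun i _ => ?_
  have := (hψ x).ne'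
  field_simp

lemma TI_continuous (hu : Sol u) (e : Fin n → ℝ) : Continuous (TI u e) := by
  unfold TI
  exact continuous_finset_sum _ fun i _ =>
    (((continuous_const.mul (contDiff_pd_one hu.c2).continuous).sub
      (hu.psi_contDiff.continuous.mul continuous_const)).pow 2)

lemma TI_nonneg (e x : Fin n → ℝ) : 0 ≤ TI u e x := Finset.sum_nonneg fun _ _ => sq_nonneg _

/-- Caccioppoli on balls. -/
theorem cacc_ball (n : ℕ) : ∃ C : ℝ, 0 < C ∧ ∀ (u : (Fin n → ℝ) → ℝ), Sol u →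
    (∀ x, 0 < psi u x) →
    (∀ η : (Fin n → ℝ) → ℝ, ContDiff ℝ 1 η → HasCompactSupport η →
      2 * ∫ x, psi u x * defi u x * η x ^ 2 ≤ ∫ x, psi u x ^ 2 * gs η x) →
    ∀ (e : Fin n → ℝ), ∑ i, e i ^ 2 = 1 → ∀ (R : ℝ), 0 < R →
      ∑ i, ∫ x in eb 0 R, psi u x ^ 2 * gs (XX u i) x
        ≤ C / R ^ 2 * ∫ x in eb 0 (2 * R), TI u e x := by
  obtain ⟨C, hC, hCb⟩ := exists_rc_bound n
  refine ⟨6 * C, by linarith, fun u hu hψ hst e he R hR => ?_⟩
  have X1 : ∀ i, ContDiff ℝ 1 (XX u i) := fun i => (XX_c2 hu hψ i).of_le (by norm_num)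
  have cψ : Continuous (psi u) := hu.psi_contDiff.continuous
  have hζ : ContDiff ℝ 1 (rc (0 : Fin n → ℝ) R) := rc_contDiff 0 R (k := 1)
  have hc : HasCompactSupport (rc (0 : Fin n → ℝ) R) := rc_hasCompactSupport hR
  have h1 := cacc hu hψ hst he hζ hc
  have h2 : ∑ i, ∫ x in eb 0 R, psi u x ^ 2 * gs (XX u i) x
      ≤ ∑ i, ∫ x, psi u x ^ 2 * (rc 0 R x ^ 2 * gs (XX u i) x) := by
    refine Finset.sum_le_sum fun i _ => ?_
    have := int_eb_le_rc_sq (f := fun x => psi u x ^ 2 * gs (XX u i) x)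
      ((cψ.pow 2).mul (cont_gs (X1 i))) (fun x => mul_nonneg (sq_nonneg _) (gs_nonneg _ _)) hR 0
    refine this.trans (le_of_eq ?_)
    refine integral_congr_ae (Eventually.of_forall fun x => ?_)
    simp only; ring
  have ic : ∀ i, Integrable (fun x => psi u x ^ 2 * ((XX u i x - e i) ^ 2 * gs (rc 0 R) x)) :=
    fun i => ((cψ.pow 2).mul (((((X1 i).continuous).sub continuous_const).pow 2).mul
      (cont_gs hζ))).integrable_of_hasCompactSupport ((hcs_gs hc).mul_left).mul_left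
  have h3 : ∑ i, ∫ x, psi u x ^ 2 * ((XX u i x - e i) ^ 2 * gs (rc 0 R) x)
      ≤ C / R ^ 2 * ∫ x in eb 0 (2 * R), TI u e x := by
    rw [← integral_finset_sum _ (fun i _ => ic i), ← integral_const_mul]
    refine int_le_int_eb (integrable_finset_sum _ fun i _ => ic i)
      (continuous_const.mul (TI_continuous hu e)) ?_ ?_
    · intro x hx
      have hz : gs (rc (0 : Fin n → ℝ) R) x = 0 := by
        have hx' : x ∉ tsupport (rc (0 : Fin n → ℝ) R) := fun h => hx (rc_tsupport hR h)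
        unfold gs
        exact Finset.sum_eq_zero fun i _ => by rw [pd_eq_zero_of_notMem_tsupport hx']; ring
      simp only [hz, mul_zero, Finset.sum_const_zero]
    · intro x _
      have hg := (hCb 0 R x hR).2.1
      rw [← TI_eq hψ, Finset.mul_sum]
      refine Finset.sum_le_sum fun i _ => ?_
      have h4 : 0 ≤ psi u x ^ 2 * (XX u i x - e i) ^ 2 := by positivity
      calc psi u x ^ 2 * ((XX u i x - e i) ^ 2 * gs (rc 0 R) x)
          = (psi u x ^ 2 * (XX u i x - e i) ^ 2) * gs (rc 0 R) x := by ring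
        _ ≤ (psi u x ^ 2 * (XX u i x - e i) ^ 2) * (C / R ^ 2) :=
            mul_le_mul_of_nonneg_left hg h4
        _ = _ := by ring
  calc _ ≤ _ := h2
    _ ≤ _ := h1
    _ ≤ 6 * (C / R ^ 2 * ∫ x in eb 0 (2 * R), TI u e x) := by linarith
    _ = _ := by ring

lemma one_dim_of_XX (hu : Sol u) (hn : 0 < n) (hψ : ∀ x, 0 < psi u x)
    (h : ∀ i x, gs (XX u i) x = 0) :
    ∃ (e : Fin n → ℝ) (g : ℝ → ℝ), ∑ i, e i ^ 2 = 1 ∧ ∀ x, u x = g (∑ i, e i * x i) := by
  -- X is constant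
  have hX : ∀ i, Differentiable ℝ (XX u i) := fun i =>
    (XX_c2 hu hψ i).differentiable (by norm_num)
  have hpd : ∀ i k x, pd k (XX u i) x = 0 := by
    intro i k x
    have h1 : pd k (XX u i) x ^ 2 ≤ gs (XX u i) x :=
      Finset.single_le_sum (f := fun k => pd k (XX u i) x ^ 2) (fun _ _ => sq_nonneg _)
        (Finset.mem_univ k)
    rw [h i x] at h1
    exact pow_eq_zero_iff (two_ne_zero) |>.mp (le_antisymm h1 (sq_nonneg _))
  set c : Fin n → ℝ := fun i => XX u i 0 with hc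
  have hconst : ∀ i x, XX u i x = c i := by
    intro i x
    have := eq_of_fderiv_zero (hX i) (v := x) (fun y => by simp [hpd]) 0
    rw [zero_add] at this
    exact this
  have hs2 : (√2 : ℝ) ≠ 0 := (Real.sqrt_pos.mpr (by norm_num)).ne'
  have hp : ∀ i x, pd i u x = psi u x * c i / √2 := by
    intro i x
    have h1 := hconst i x
    unfold XX at h1
    have := (hψ x).ne'
    field_simp at h1 ⊢
    linarith
  -- direction
  obtain ⟨e, he, hce⟩ : ∃ e : Fin n → ℝ, ∑ i, e i ^ 2 = 1 ∧ ∀ a : Fin n → ℝ,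
      ∑ i, a i * e i = 0 → ∑ i, a i * c i = 0 := by
    by_cases h0 : ∑ i, c i ^ 2 = 0
    · refine ⟨Pi.single ⟨0, hn⟩ 1, ?_, fun a _ => ?_⟩
      · rw [Finset.sum_eq_single ⟨0, hn⟩]
        · simp
        · intro b _ hb; simp [Pi.single_apply, hb]
        · simp
      · have h1 := (Finset.sum_eq_zero_iff_of_nonneg (fun i _ => sq_nonneg (c i))).mp h0
        refine Finset.sum_eq_zero fun i hi => ?_
        have := pow_eq_zero_iff (two_ne_zero) |>.mp (h1 i hi)
        rw [this, mul_zero]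
    · have hpos : 0 < ∑ i, c i ^ 2 :=
        lt_of_le_of_ne (Finset.sum_nonneg fun _ _ => sq_nonneg _) (Ne.symm h0)
      set N := √(∑ i, c i ^ 2) with hN
      have hN0 : 0 < N := Real.sqrt_pos.mpr hpos
      have hN2 : N ^ 2 = ∑ i, c i ^ 2 := Real.sq_sqrt hpos.le
      refine ⟨fun i => c i / N, ?_, fun a ha => ?_⟩
      · simp_rw [div_pow]
        rw [← Finset.sum_div, ← hN2]
        field_simp
      · have h1 : ∑ i, a i * (c i / N) = (∑ i, a i * c i) / N := by
          rw [Finset.sum_div]; exact Finset.sum_congr rfl fun i _ => by ring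
        rw [h1] at ha
        rcases div_eq_zero_iff.mp ha with h2 | h2
        · exact h2
        · exact absurd h2 hN0.ne'
  have hd : Differentiable ℝ u := hu.c2.differentiable (by norm_num)
  refine ⟨e, fun t => u (t • e), he, fun x => ?_⟩
  set t : ℝ := ∑ i, e i * x i with ht
  have ha0 : ∑ i, (x - t • e) i * e i = 0 := by
    have : ∀ i, (x - t • e) i * e i = e i * x i - t * e i ^ 2 := by
      intro i; simp; ring
    simp_rw [this]
    rw [Finset.sum_sub_distrib, ← Finset.mul_sum, he, ← ht]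
    ring
  have h1 := eq_of_fderiv_zero hd (v := x - t • e) (fun y => by
    have h2 := hce _ ha0
    have : ∀ i, (x - t • e) i * pd i u y = psi u y / √2 * ((x - t • e) i * c i) := by
      intro i; rw [hp]; ring
    simp_rw [this]
    rw [← Finset.mul_sum, h2, mul_zero]) (t • e)
  rw [show t • e + (x - t • e) = x by abel] at h1
  exact h1

/-- The end: tilt excess `o(R²)` along a sequence of radii implies one-dimensionality. -/
theorem end28 (hn : 0 < n) (hu : Sol u) (hψ : ∀ x, 0 < psi u x)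
    (hst : ∀ η : (Fin n → ℝ) → ℝ, ContDiff ℝ 1 η → HasCompactSupport η →
      2 * ∫ x, psi u x * defi u x * η x ^ 2 ≤ ∫ x, psi u x ^ 2 * gs η x)
    (h : ∀ ε : ℝ, 0 < ε → ∀ R0 : ℝ, ∃ R : ℝ, R0 ≤ R ∧ 0 < R ∧ ∃ e : Fin n → ℝ, ∑ i, e i ^ 2 = 1 ∧
      ∫ x in eb 0 (2 * R), TI u e x ≤ ε * R ^ 2) :
    ∃ (e : Fin n → ℝ) (g : ℝ → ℝ), ∑ i, e i ^ 2 = 1 ∧ ∀ x, u x = g (∑ i, e i * x i) := by
  obtain ⟨C, hC, hcb⟩ := cacc_ball n
  have X1 : ∀ i, ContDiff ℝ 1 (XX u i) := fun i => (XX_c2 hu hψ i).of_le (by norm_num)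
  have cψ : Continuous (psi u) := hu.psi_contDiff.continuous
  have cF : ∀ i, Continuous (fun x => psi u x ^ 2 * gs (XX u i) x) := fun i =>
    (cψ.pow 2).mul (cont_gs (X1 i))
  have F0 : ∀ i x, 0 ≤ psi u x ^ 2 * gs (XX u i) x := fun i x =>
    mul_nonneg (sq_nonneg _) (gs_nonneg _ _)
  -- each integral over a fixed ball vanishes
  have hz : ∀ (r : ℝ), 0 < r → ∀ i, ∫ x in eb 0 r, psi u x ^ 2 * gs (XX u i) x = 0 := by
    intro r hr i
    apply le_antisymm _ (int_eb_nonneg (F0 i) 0 r)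
    apply le_of_forall_pos_le_add
    intro δ hδ
    rw [zero_add]
    obtain ⟨R, hR1, hR0, e, he, hle⟩ := h (δ / C) (by positivity) r
    have h1 := hcb u hu hψ hst e he R hR0
    have h2 : ∫ x in eb 0 r, psi u x ^ 2 * gs (XX u i) x
        ≤ ∫ x in eb 0 R, psi u x ^ 2 * gs (XX u i) x := int_eb_mono (cF i) (F0 i) hr.le hR1 0
    have h3 : ∫ x in eb 0 R, psi u x ^ 2 * gs (XX u i) x
        ≤ ∑ i, ∫ x in eb 0 R, psi u x ^ 2 * gs (XX u i) x :=
      Finset.single_le_sum (f := fun i => ∫ x in eb 0 R, psi u x ^ 2 * gs (XX u i) x)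
        (fun j _ => int_eb_nonneg (F0 j) 0 R) (Finset.mem_univ i)
    have h4 : C / R ^ 2 * ∫ x in eb 0 (2 * R), TI u e x ≤ C / R ^ 2 * (δ / C * R ^ 2) :=
      mul_le_mul_of_nonneg_left hle (by positivity)
    have h5 : C / R ^ 2 * (δ / C * R ^ 2) = δ := by field_simp
    linarith
  apply one_dim_of_XX hu hn hψ
  intro i x
  -- a continuous nonnegative function with vanishing integrals on balls vanishes
  by_contra hne
  have hpos : 0 < gs (XX u i) x := lt_of_le_of_ne (gs_nonneg _ _) (Ne.symm hne)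
  set r : ℝ := √(dsq 0 x) + 1 with hr
  have hr0 : 0 < r := by positivity
  have hx : x ∈ eb 0 r := by
    rw [mem_eb_sqrt hr0.le]; linarith
  have hI := hz r hr0 i
  have hcont := cF i
  have hae := (setIntegral_eq_zero_iff_of_nonneg_ae (μ := volume) (s := eb (0 : Fin n → ℝ) r)
    (Eventually.of_forall (F0 i)) (integrableOn_eb hcont 0 r)).mp hI
  -- interior point
  have hopen : IsOpen {y : Fin n → ℝ | dsq 0 y < r ^ 2} := isOpen_lt (dsq_continuous 0) continuous_const
  have hxo : x ∈ {y : Fin n → ℝ | dsq 0 y < r ^ 2} := by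
    have h1 := Real.sq_sqrt (dsq_nonneg 0 x)
    have h2 := Real.sqrt_nonneg (dsq 0 x)
    show dsq 0 x < r ^ 2
    rw [hr]; nlinarith
  have hae2 : ∀ᵐ y ∂(volume.restrict {y : Fin n → ℝ | dsq 0 y < r ^ 2}),
      psi u y ^ 2 * gs (XX u i) y = 0 := by
    have hsub : {y : Fin n → ℝ | dsq 0 y < r ^ 2} ⊆ eb 0 r := fun y hy =>
      mem_eb.mpr (le_of_lt (show dsq 0 y < r ^ 2 from hy))
    exact ae_restrict_of_ae_restrict_of_subset hsub hae
  have := (MeasureTheory.Measure.eqOn_open_of_ae_eq (f := fun y => psi u y ^ 2 * gs (XX u i) y)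
    (g := fun _ => (0:ℝ)) hae2 hopen hcont.continuousOn continuousOn_const) hxo
  simp only at this
  have h3 : 0 < psi u x ^ 2 * gs (XX u i) x := mul_pos (pow_pos (hψ x) 2) hpos
  linarith

end Vale.Agent.P134.M4
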