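import Vale.Agent.P134.H765.Q14
import Vale.Agent.P134.H491.T4
import Vale.Agent.P134.H919.StA
import Vale.Agent.P134.H688.StB
import Vale.Agent.P134.H981.StC
import Vale.Agent.P134.H355.StD
import Vale.Agent.P134.H688.StE
import Vale.Agent.P134.H891.StepF

set_option linter.all false

/-! De Giorgi's conjecture in dimension four from `LI.StS3` alone. -/

namespace Vale.Agent.P134.M4

open Vale.Agent.P134 MeasureTheory Filter Topology
open scoped InnerProductSpace Laplacian

/-- The case of limits `±1` in dimension four, unconditional. -/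
theorem savin4 : H765.SavinCase 4 3 :=
  H765.savinCase H919.stA H688.stB H981.stC H355.stD H688.stE H891.stF

/-- De Giorgi's conjecture in dimension four from `StS3`. -/
theorem q1_of_S3 (hS : LI.StS3) {u : EuclideanSpace ℝ (Fin 4) → ℝ} (hu : ContDiff ℝ 2 u)
    (heq : ∀ x, Δ u x = u x ^ 3 - u x) (hb : ∀ x, |u x| ≤ 1)
    {a : EuclideanSpace ℝ (Fin 4)} (ha : ∀ x, 0 < fderiv ℝ u x a) :
    ∃ (e : EuclideanSpace ℝ (Fin 4)) (c : ℝ), ‖e‖ = 1 ∧
      ∀ x, u x = Real.tanh ((⟪e, x⟫_ℝ - c) / √2) :=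
  H765.q1_dim4 H491.stT4 hS H919.stA H688.stB H981.stC H355.stD H688.stE H891.stF hu heq hb ha

end Vale.Agent.P134.M4
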